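import Vale.Agent.P234Z57.Geo
import Vale.Agent.P210.R2.H53.Base

/-!
# Hopf-Rinow: geodesically complete Riemannian manifolds are proper
-/

set_option maxSynthPendingDepth 3
set_option linter.unusedSectionVars false

open Set Filter Topology Bundle Manifold Metric
open scoped ContDiff

namespace Vale.Agent.P210Z57

open Vale.Agent.P216 Vale.Agent.P216.Local Vale.Agent.P216.Chart Vale.Agent.P234Z57
open Vale.Agent.P210.R2.H53

variable {E : Type*} [NormedAddCommGroup E] [NormedSpace ℝ E] [FiniteDimensional ℝ E]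
  {M : Type*} [MetricSpace M] [ChartedSpace E M] [IsManifold 𝓘(ℝ, E) ∞ M]
  [RiemannianBundle (fun x : M => TangentSpace 𝓘(ℝ, E) x)]
  [IsContMDiffRiemannianBundle 𝓘(ℝ, E) ∞ E (fun x : M => TangentSpace 𝓘(ℝ, E) x)]
  [IsRiemannianManifold 𝓘(ℝ, E) M]

variable (E) in
/-- The geodesic equation at time `t`, in every chart. -/
def GeoAt (c : ℝ → M) (t : ℝ) : Prop :=
  ContinuousAt c t ∧ ∀ p : M, c t ∈ (chartAt E p).source → EL (metric p) (dom E p) (crd E p c) t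

theorem geoAt_of_geo {c : ℝ → M} (hc : IsGeodesic E c) (t : ℝ) : GeoAt E c t :=
  ⟨hc.1.continuous.continuousAt, fun _ h => hc.el h⟩

theorem GeoAt.smooth {c : ℝ → M} {t : ℝ} (h : GeoAt E c t) :
    ContMDiffAt 𝓘(ℝ, ℝ) 𝓘(ℝ, E) ∞ c t := by
  rw [contMDiffAt_iff_target]
  exact ⟨h.1, (h.2 _ (mem_chart_source E (c t))).2.1.contMDiffAt⟩

theorem geo_of_geoAt {c : ℝ → M} (h : ∀ t, GeoAt E c t) : IsGeodesic E c :=
  ⟨fun t => (h t).smooth, fun p t ht w =>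
    (eq_iff p ((h t).2 p ht).1 _ _ w).2 (((h t).2 p ht).2.2 w)⟩

theorem geoAt_of_iso {c : ℝ → M} {a b t₀ : ℝ} (ht₀ : t₀ ∈ Ioo a b)
    (h : ∀ s ∈ Ioo a b, ∀ t ∈ Ioo a b, dist (c s) (c t) = |s - t|) : GeoAt E c t₀ := by
  have hn := Ioo_mem_nhds ht₀.1 ht₀.2
  have hc : ContinuousAt c t₀ := by
    rw [ContinuousAt, tendsto_iff_dist_tendsto_zero]
    have h3 : Tendsto (fun s : ℝ => |s - t₀|) (𝓝 t₀) (𝓝 0) := by
      have : Continuous fun s : ℝ => |s - t₀| := by fun_prop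
      simpa using this.tendsto t₀
    exact h3.congr' (mem_of_superset hn fun s hs => (h s hs t₀ ht₀).symm)
  refine ⟨hc, fun p hp => ?_⟩
  have hps : c t₀ ∈ (extChartAt 𝓘(ℝ, E) p).source := by rwa [extChartAt_source]
  have hpd : phi (E := E) p (c t₀) ∈ dom E p := phi_mem_dom p hps
  obtain ⟨ρ, C, hB⟩ := (localMetric (E := E) p).exists_goodBall hpd
  obtain ⟨ε, hε, h1⟩ := nhds_chart p hpd hB.rpos
  rw [psi_phi p hps] at h1
  have hcont : ∀ᶠ t in 𝓝 t₀, dist (c t) (c t₀) < ε ∧ t ∈ Ioo a b :=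
    (Metric.tendsto_nhds.1 hc _ hε).and hn
  obtain ⟨δ, hδ, h3⟩ := Metric.eventually_nhds_iff.1 hcont
  have h4 : ∀ t ∈ Icc (t₀ - δ / 2) (t₀ + δ / 2), dist (c t) (c t₀) < ε ∧ t ∈ Ioo a b := by
    intro t ht
    refine h3 ?_
    rw [Real.dist_eq, abs_lt]
    constructor <;> linarith only [ht.1, hδ, ht.2]
  have hmin : IsMin (psi (E := E) p) (fun t => phi (E := E) p (c t)) (phi (E := E) p (c t₀)) ρ
      (t₀ - δ / 2) (t₀ + δ / 2) 1 := by
    refine ⟨by linarith only [hδ], one_pos, fun t ht => (h1 _ (h4 t ht).1).2, fun s hs t ht => ?_⟩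
    rw [psi_phi p (h1 _ (h4 s hs).1).1, psi_phi p (h1 _ (h4 t ht).1).1, one_mul]
    exact h s (h4 s hs).2 t (h4 t ht).2
  exact ⟨hpd, P216Z57.isMin_eq (localMetric (E := E) p) (metric_contDiffOn p) hB hmin
    ⟨by linarith only [hδ], by linarith only [hδ]⟩⟩

theorem loc_unique {c₁ c₂ : ℝ → M} {t₀ : ℝ} (h₁ : ∀ᶠ t in 𝓝 t₀, GeoAt E c₁ t)
    (h₂ : ∀ᶠ t in 𝓝 t₀, GeoAt E c₂ t) (e0 : c₁ t₀ = c₂ t₀)
    (e1 : deriv (crd E (c₁ t₀) c₁) t₀ = deriv (crd E (c₁ t₀) c₂) t₀) : c₁ =ᶠ[𝓝 t₀] c₂ := by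
  have hn := (chartAt E (c₁ t₀)).open_source.mem_nhds (mem_chart_source E (c₁ t₀))
  have s₁ : ∀ᶠ t in 𝓝 t₀, c₁ t ∈ (chartAt E (c₁ t₀)).source := h₁.self_of_nhds.1.eventually hn
  have s₂ : ∀ᶠ t in 𝓝 t₀, c₂ t ∈ (chartAt E (c₁ t₀)).source :=
    h₂.self_of_nhds.1.eventually (by rwa [← e0])
  have key := EL.unique (localMetric (E := E) (c₁ t₀)) ((h₁.and s₁).mono fun t ht => ht.1.2 _ ht.2)
    ((h₂.and s₂).mono fun t ht => ht.1.2 _ ht.2) (congrArg (extChartAt 𝓘(ℝ, E) (c₁ t₀)) e0) e1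
  filter_upwards [key, s₁, s₂] with t ht a₁ a₂
  exact (extChartAt 𝓘(ℝ, E) (c₁ t₀)).injOn (by rwa [extChartAt_source])
    (by rwa [extChartAt_source]) ht

theorem GeoAt.deriv_crd {c : ℝ → M} {t : ℝ} (hc : GeoAt E c t) {p : M}
    (ht : c t ∈ (chartAt E p).source) : deriv (crd E p c) t =
      (fun q : TangentBundle 𝓘(ℝ, E) M =>
        (mfderiv 𝓘(ℝ, E) 𝓘(ℝ, E) (extChartAt 𝓘(ℝ, E) p) q.1 q.2 : E)) ⟨c t, vel E c t⟩ := by
  have h1 := mfderiv_comp t (mdifferentiableAt_extChartAt (I := 𝓘(ℝ, E)) ht)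
    (hc.smooth.mdifferentiableAt (by simp))
  rw [mfderiv_eq_fderiv] at h1
  exact DFunLike.congr_fun h1 (1 : ℝ)

theorem eqOn_of {c₁ c₂ : ℝ → M} {a b t₁ : ℝ} (h₁ : ∀ t ∈ Ioo a b, GeoAt E c₁ t)
    (h₂ : ∀ t ∈ Ioo a b, GeoAt E c₂ t) (ht₁ : t₁ ∈ Ioo a b)
    (e : (⟨c₁ t₁, vel E c₁ t₁⟩ : TangentBundle 𝓘(ℝ, E) M) = ⟨c₂ t₁, vel E c₂ t₁⟩) :
    EqOn c₁ c₂ (Ioo a b) := by
  have ev : ∀ {c : ℝ → M}, (∀ t ∈ Ioo a b, GeoAt E c t) → ∀ t ∈ Ioo a b,
      ∀ᶠ s in 𝓝 t, GeoAt E c s := fun h t ht => mem_of_superset (Ioo_mem_nhds ht.1 ht.2) h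
  have hopen : IsOpen {t | c₁ =ᶠ[𝓝 t] c₂} :=
    isOpen_iff_mem_nhds.2 fun t ht => eventually_eventually_nhds.2 ht
  have e0 : c₁ t₁ = c₂ t₁ := congrArg TotalSpace.proj e
  have h0 : c₁ =ᶠ[𝓝 t₁] c₂ := by
    refine loc_unique (ev h₁ _ ht₁) (ev h₂ _ ht₁) e0 ?_
    rw [(h₁ _ ht₁).deriv_crd (mem_chart_source E (c₁ t₁)),
      (h₂ _ ht₁).deriv_crd (p := c₁ t₁) (e0 ▸ mem_chart_source E (c₁ t₁)), e]
  have key := isPreconnected_Ioo.subset_of_closure_inter_subset hopen ⟨t₁, ht₁, h0⟩ (by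
    rintro t₀ ⟨ht₀, hm⟩
    have hfreq : ∃ᶠ t in 𝓝 t₀, c₁ =ᶠ[𝓝 t] c₂ := mem_closure_iff_frequently.1 ht₀
    have e0 : c₁ t₀ = c₂ t₀ := tendsto_nhds_unique_of_frequently_eq (h₁ _ hm).1 (h₂ _ hm).1
      (hfreq.mono fun t ht => ht.eq_of_nhds)
    have a₁ := (h₁ _ hm).2 _ (mem_chart_source E (c₁ t₀))
    have a₂ := (h₂ _ hm).2 (c₁ t₀) (e0 ▸ mem_chart_source E (c₁ t₀))
    refine loc_unique (ev h₁ _ hm) (ev h₂ _ hm) e0 (tendsto_nhds_unique_of_frequently_eq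
      (deriv_smooth a₁.2.1).continuousAt (deriv_smooth a₂.2.1).continuousAt
      (hfreq.mono fun t ht => EventuallyEq.deriv_eq ?_))
    filter_upwards [ht] with s hs
    exact congrArg (extChartAt 𝓘(ℝ, E) (c₁ t₀)) hs)
  exact fun t ht => EventuallyEq.eq_of_nhds (key ht)

variable (E) in
include E in
omit [FiniteDimensional ℝ E] [IsManifold 𝓘(ℝ, E) ∞ M]
  [IsContMDiffRiemannianBundle 𝓘(ℝ, E) ∞ E (fun x : M => TangentSpace 𝓘(ℝ, E) x)] in
theorem approx_curve (x y : M) {ε : ℝ} (hε : 0 < ε) : ∃ f : ℝ → M,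
    ∀ t ∈ Icc 0 (dist x y), dist x (f t) = t ∧ dist (f t) y ≤ dist x y - t + ε ∧
      ∀ s ∈ Icc 0 t, dist (f s) (f t) ≤ t - s + ε := by
  have hlt : riemannianEDist 𝓘(ℝ, E) x y < ENNReal.ofReal (dist x y + ε) := by
    rw [← IsRiemannianManifold.out (I := 𝓘(ℝ, E)), edist_dist,
      ENNReal.ofReal_lt_ofReal_iff (by positivity)]
    linarith
  obtain ⟨γ, hγ0, hγ1, hγ, hlen⟩ := exists_lt_of_riemannianEDist_lt hlt
  have hcont : ContinuousOn (fun t => dist x (γ t)) (Icc 0 1) :=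
    (continuous_const.dist continuous_id).comp_continuousOn hγ.continuousOn
  have hex : ∀ s : ℝ, ∃ u ∈ Icc (0 : ℝ) 1, s ∈ Icc 0 (dist x y) → dist x (γ u) = s := by
    intro s
    by_cases hs : s ∈ Icc 0 (dist x y)
    · obtain ⟨u, hu, h⟩ : s ∈ (fun t => dist x (γ t)) '' Icc (0 : ℝ) 1 := by
        apply intermediate_value_Icc zero_le_one hcont
        simpa [hγ0, hγ1] using hs
      exact ⟨u, hu, fun _ => h⟩
    · exact ⟨0, ⟨le_rfl, zero_le_one⟩, fun h => (hs h).elim⟩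
  choose τ hτ hτ' using hex
  have three : ∀ u ∈ Icc (0 : ℝ) 1, ∀ u' ∈ Icc (0 : ℝ) 1, u ≤ u' →
      dist x (γ u) + dist (γ u) (γ u') + dist (γ u') y < dist x y + ε := by
    intro u hu u' hu' h
    have h1 := riemannianEDist_le_pathELength (I := 𝓘(ℝ, E))
      (hγ.mono (Icc_subset_Icc le_rfl hu.2)) hγ0 rfl hu.1
    have h2 := riemannianEDist_le_pathELength (I := 𝓘(ℝ, E))
      (hγ.mono (Icc_subset_Icc hu.1 hu'.2)) rfl rfl h
    have h3 := riemannianEDist_le_pathELength (I := 𝓘(ℝ, E))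
      (hγ.mono (Icc_subset_Icc hu'.1 le_rfl)) rfl hγ1 hu'.2
    have h4 := add_le_add (add_le_add h1 h2) h3
    rw [pathELength_add hu.1 h, pathELength_add hu'.1 hu'.2] at h4
    have h5 := h4.trans_lt hlen
    simp only [← IsRiemannianManifold.out (I := 𝓘(ℝ, E)), edist_dist] at h5
    rwa [← ENNReal.ofReal_add dist_nonneg dist_nonneg,
      ← ENNReal.ofReal_add (by positivity) dist_nonneg,
      ENNReal.ofReal_lt_ofReal_iff (by positivity)] at h5
  refine ⟨fun t => γ (τ t), fun t ht => ⟨hτ' t ht, ?_, fun s hs => ?_⟩⟩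
  · have := three _ (hτ t) _ (hτ t) le_rfl
    rw [hτ' t ht, dist_self] at this
    linarith
  · have hs' : s ∈ Icc 0 (dist x y) := ⟨hs.1, hs.2.trans ht.2⟩
    have a1 := dist_triangle x (γ (τ t)) y
    have a2 := dist_triangle x (γ (τ s)) y
    rw [hτ' t ht] at a1
    rw [hτ' s hs'] at a2
    rcases le_total (τ s) (τ t) with h | h
    · have := three _ (hτ s) _ (hτ t) h
      rw [hτ' s hs'] at this
      linarith
    · have := three _ (hτ t) _ (hτ s) h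
      rw [hτ' t ht, dist_comm (γ (τ t))] at this
      linarith [hs.2]

variable (hG : ∀ (x : M) (v : TangentSpace 𝓘(ℝ, E) x), ∃ c : ℝ → M, IsGeodesic E c ∧ Starts c x v)

include hG in
theorem conv (x : M) {r : ℝ} (hr : 0 < r) (hc : ∀ r' < r, IsCompact (closedBall x r'))
    (y : ℕ → M) (hd : Tendsto (fun i => dist x (y i)) (hyperfilter ℕ) (𝓝 r)) :
    ∃ q, Tendsto y (hyperfilter ℕ) (𝓝 q) := by
  choose f hf using fun i : ℕ => approx_curve E x (y i) (ε := 1 / ((i : ℝ) + 1)) (by positivity)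
  have h0 : Tendsto (fun i : ℕ => 1 / ((i : ℝ) + 1)) (hyperfilter ℕ) (𝓝 0) :=
    tendsto_one_div_add_atTop_nhds_zero_nat.mono_left Nat.hyperfilter_le_atTop
  have ev : ∀ t ∈ Ioo 0 r, ∀ᶠ i in hyperfilter ℕ, t ∈ Icc 0 (dist x (y i)) := fun t ht =>
    (hd.eventually (lt_mem_nhds ht.2)).mono fun i hi => ⟨ht.1.le, hi.le⟩
  have hl : ∀ t, ∃ q, t ∈ Ioo 0 r → Tendsto (fun i => f i t) (hyperfilter ℕ) (𝓝 q) := by
    intro t
    by_cases ht : t ∈ Ioo 0 r
    · obtain ⟨q, -, hq⟩ := (hc t ht.2).ultrafilter_le_nhds ((hyperfilter ℕ).map fun i => f i t)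
        (le_principal_iff.2 ((ev t ht).mono fun i hi => by
          rw [mem_closedBall, dist_comm, (hf i t hi).1]))
      exact ⟨q, fun _ => hq⟩
    · exact ⟨x, fun h => (ht h).elim⟩
  choose γ hγ using hl
  have d0 : ∀ t ∈ Ioo 0 r, dist x (γ t) = t := fun t ht =>
    tendsto_nhds_unique (tendsto_const_nhds.dist (hγ t ht))
      (tendsto_const_nhds.congr' ((ev t ht).mono fun i hi => (hf i t hi).1.symm))
  have d1 : ∀ s ∈ Ioo 0 r, ∀ t ∈ Ioo 0 r, s ≤ t → dist (γ s) (γ t) = t - s := by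
    intro s hs t ht hst
    refine le_antisymm ?_ ?_
    · have h1 := h0.const_add (t - s)
      rw [add_zero] at h1
      exact le_of_tendsto_of_tendsto ((hγ s hs).dist (hγ t ht)) h1
        ((ev t ht).mono fun i hi => (hf i t hi).2.2 s ⟨hs.1.le, hst⟩)
    · have := dist_triangle x (γ s) (γ t)
      rw [d0 s hs, d0 t ht] at this
      linarith
  have hg : ∀ t ∈ Ioo (-(r / 2)) (r / 2), GeoAt E (fun t => γ (t + r / 2)) t := by
    intro t ht
    refine geoAt_of_iso ht fun s hs t ht => ?_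
    have hs' : s + r / 2 ∈ Ioo 0 r := ⟨by linarith [hs.1], by linarith [hs.2]⟩
    have ht' : t + r / 2 ∈ Ioo 0 r := ⟨by linarith [ht.1], by linarith [ht.2]⟩
    rcases le_total s t with h | h
    · rw [d1 _ hs' _ ht' (by linarith), abs_of_nonpos (by linarith)]
      ring
    · rw [dist_comm, d1 _ ht' _ hs' (by linarith), abs_of_nonneg (by linarith)]
      ring
  obtain ⟨c, hc1, hc2⟩ := hG _ (vel E (fun t => γ (t + r / 2)) 0)
  have heq := eqOn_of (fun t _ => geoAt_of_geo hc1 t) hg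
    (t₁ := 0) ⟨by linarith, by linarith⟩ hc2
  refine ⟨c (r / 2), Metric.tendsto_nhds.2 fun ε hε => ?_⟩
  obtain ⟨δ, hδ, h1⟩ := Metric.continuousAt_iff.1
    (hc1.1.continuous.continuousAt (x := r / 2)) (ε / 4) (by positivity)
  obtain ⟨η, hη, hη1, hη2, hη3⟩ : ∃ η : ℝ, 0 < η ∧ η < δ ∧ η < r ∧ η < ε / 4 :=
    ⟨min (min δ r) (ε / 4) / 2, by positivity,
      by linarith [min_le_left (min δ r) (ε / 4), min_le_left δ r],
      by linarith [min_le_left (min δ r) (ε / 4), min_le_right δ r],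
      by linarith [min_le_right (min δ r) (ε / 4)]⟩
  have ht : r - η ∈ Ioo 0 r := ⟨by linarith, by linarith⟩
  have h2 : dist (γ (r - η)) (c (r / 2)) < ε / 4 := by
    have e := heq (x := r / 2 - η) ⟨by linarith, by linarith⟩
    simp only [show r / 2 - η + r / 2 = r - η by ring] at e
    rw [← e]
    refine h1 ?_
    rw [Real.dist_eq, show r / 2 - η - r / 2 = -η by ring, abs_neg, abs_of_pos hη]
    exact hη1
  filter_upwards [ev _ ht, Metric.tendsto_nhds.1 (hγ _ ht) (ε / 4) (by positivity),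
    hd.eventually (gt_mem_nhds (show r < r + ε / 8 by linarith)),
    h0.eventually (gt_mem_nhds (show 0 < ε / 8 by positivity))] with i a1 a2 a3 a4
  have a5 := (hf i _ a1).2.1
  have a6 := dist_triangle4 (y i) (f i (r - η)) (γ (r - η)) (c (r / 2))
  rw [dist_comm (y i) (f i (r - η))] at a6
  linarith

include hG in
theorem limit (x : M) {r : ℝ} (hr : 0 < r) (hc : ∀ r' < r, IsCompact (closedBall x r')) :
    IsCompact (closedBall x r) := by
  rw [isCompact_iff_isSeqCompact]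
  intro y hy
  have key : ∃ q, Tendsto y (hyperfilter ℕ) (𝓝 q) := by
    obtain ⟨ρ, hρ, hd⟩ := (isCompact_Icc (a := 0) (b := r)).ultrafilter_le_nhds
      ((hyperfilter ℕ).map fun i => dist x (y i)) (le_principal_iff.2 (mem_map.2
        (univ_mem' fun i => ⟨dist_nonneg, by simpa only [mem_closedBall, dist_comm] using hy i⟩)))
    rcases hρ.2.eq_or_lt with h | h
    · exact conv hG x hr hc y (h ▸ hd)
    · have hd' : Tendsto (fun i => dist x (y i)) (hyperfilter ℕ) (𝓝 ρ) := hd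
      obtain ⟨q, -, hq⟩ := (hc ((ρ + r) / 2) (by linarith)).ultrafilter_le_nhds
        ((hyperfilter ℕ).map y) (le_principal_iff.2
          ((hd'.eventually (gt_mem_nhds (show ρ < (ρ + r) / 2 by linarith))).mono fun i hi => by
            rw [mem_closedBall, dist_comm]
            exact hi.le))
      exact ⟨q, hq⟩
  obtain ⟨q, hq⟩ := key
  have h1 : MapClusterPt q atTop y := hq.mapClusterPt.mono Nat.hyperfilter_le_atTop
  obtain ⟨φ, hφ, h2⟩ := h1.tendsto_subseq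
  exact ⟨q, isClosed_closedBall.mem_of_tendsto hq (Eventually.of_forall hy), φ, hφ, h2⟩

include hG in
theorem proper : ProperSpace M := by
  have : ProperSpace E := FiniteDimensional.proper ℝ E
  have : LocallyCompactSpace M := ChartedSpace.locallyCompactSpace E M
  refine ⟨fun x r => ?_⟩
  by_contra hcon
  have h0 : (0 : ℝ) ∈ {r | 0 ≤ r ∧ IsCompact (closedBall x r)} := ⟨le_rfl, by simp⟩
  have hdown : ∀ r₁ r₂, r₁ ≤ r₂ → IsCompact (closedBall x r₂) → IsCompact (closedBall x r₁) :=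
    fun r₁ r₂ h12 hc => hc.of_isClosed_subset isClosed_closedBall (closedBall_subset_closedBall h12)
  have hbdd : BddAbove {r | 0 ≤ r ∧ IsCompact (closedBall x r)} := by
    refine ⟨r, fun s hs => ?_⟩
    by_contra hlt
    exact hcon (hdown r s (not_le.1 hlt).le hs.2)
  have hR0 := le_csSup hbdd h0
  have hRS : IsCompact (closedBall x (sSup {r | 0 ≤ r ∧ IsCompact (closedBall x r)})) := by
    rcases hR0.eq_or_lt with h1 | h1
    · rw [← h1]
      exact h0.2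
    · refine limit hG x h1 fun r' hr' => ?_
      obtain ⟨s, hs, hs'⟩ := exists_lt_of_lt_csSup ⟨0, h0⟩ hr'
      exact hdown r' s hs'.le hs.2
  obtain ⟨r', hr', hc'⟩ := hr_enlarge (approxMid_of_riemannian E M) x hR0 hRS
  exact absurd (le_csSup hbdd ⟨hR0.trans hr'.le, hc'⟩) (not_le.2 hr')

end Vale.Agent.P210Z57
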