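import Vale.Agent.P210Z57.Defs
import Vale.Agent.P210Z57.HR
import Vale.Agent.P210Q.Main

/-!
# P210: the width bound for connected complete Riemannian manifolds
-/

set_option maxSynthPendingDepth 3

open Set Filter Topology Bundle Manifold Metric
open scoped ContDiff ENNReal

namespace Vale.Agent.P210Z57

section

variable (E : Type*) [NormedAddCommGroup E] [NormedSpace ℝ E] [FiniteDimensional ℝ E]
  (M : Type*) [TopologicalSpace M] [T2Space M] [ConnectedSpace M] [ChartedSpace E M]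
  [RiemannianBundle (fun x : M => TangentSpace 𝓘(ℝ, E) x)] [IsManifold 𝓘(ℝ, E) ∞ M]
  [IsContMDiffRiemannianBundle 𝓘(ℝ, E) ∞ E (fun x : M => TangentSpace 𝓘(ℝ, E) x)]

omit [FiniteDimensional ℝ E] [T2Space M] [ConnectedSpace M] in
theorem contRiem : IsContinuousRiemannianBundle E (fun x : M => TangentSpace 𝓘(ℝ, E) x) := by
  obtain ⟨g, hg, h⟩ := IsContMDiffRiemannianBundle.exists_contMDiff (IB := 𝓘(ℝ, E)) (n := ∞)
    (F := E) (E := fun x : M => TangentSpace 𝓘(ℝ, E) x)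
  exact ⟨g, hg.continuous, h⟩

omit [FiniteDimensional ℝ E] [T2Space M] in
theorem dg_lt_top (x y : M) : riemannianEDist 𝓘(ℝ, E) x y < ⊤ := by
  have := contRiem E M
  have h1 : IsOpen {y : M | riemannianEDist 𝓘(ℝ, E) x y < ⊤} := by
    rw [isOpen_iff_mem_nhds]
    intro y hy
    filter_upwards [eventually_riemannianEDist_lt 𝓘(ℝ, E) y (c := 1) one_pos] with z hz
    exact riemannianEDist_triangle.trans_lt (ENNReal.add_lt_top.2 ⟨hy, hz.trans ENNReal.one_lt_top⟩)
  have h2 : IsClosed {y : M | riemannianEDist 𝓘(ℝ, E) x y < ⊤} := by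
    rw [← isOpen_compl_iff, isOpen_iff_mem_nhds]
    intro y hy
    filter_upwards [eventually_riemannianEDist_lt 𝓘(ℝ, E) y (c := 1) one_pos] with z hz hz'
    refine hy (riemannianEDist_triangle.trans_lt (ENNReal.add_lt_top.2 ⟨hz', ?_⟩))
    rw [riemannianEDist_comm]
    exact hz.trans ENNReal.one_lt_top
  have h3 := IsClopen.eq_univ ⟨h2, h1⟩ ⟨x, by simp [riemannianEDist_self]⟩
  exact (h3 ▸ mem_univ y : y ∈ {y : M | riemannianEDist 𝓘(ℝ, E) x y < ⊤})

include E in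
omit [ConnectedSpace M] [RiemannianBundle (fun x : M => TangentSpace 𝓘(ℝ, E) x)]
  [IsManifold 𝓘(ℝ, E) ∞ M]
  [IsContMDiffRiemannianBundle 𝓘(ℝ, E) ∞ E (fun x : M => TangentSpace 𝓘(ℝ, E) x)] in
theorem t3 : T3Space M :=
  haveI : ProperSpace E := FiniteDimensional.proper ℝ E
  haveI : LocallyCompactSpace M := ChartedSpace.locallyCompactSpace E M
  inferInstance

/-- The metric space `(M, d_g)`. -/
@[reducible] noncomputable def met : MetricSpace M :=
  letI := contRiem E M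
  letI := t3 E M
  letI : EMetricSpace M := EMetricSpace.ofRiemannianMetric 𝓘(ℝ, E) M
  EMetricSpace.toMetricSpace fun x y => (dg_lt_top E M x y).ne

end

section

variable {E : Type*} [NormedAddCommGroup E] [NormedSpace ℝ E] [FiniteDimensional ℝ E]
  {M : Type*} [MetricSpace M] [ChartedSpace E M]
  [RiemannianBundle (fun x : M => TangentSpace 𝓘(ℝ, E) x)] [IsManifold 𝓘(ℝ, E) ∞ M]
  [IsContMDiffRiemannianBundle 𝓘(ℝ, E) ∞ E (fun x : M => TangentSpace 𝓘(ℝ, E) x)]
  [IsRiemannianManifold 𝓘(ℝ, E) M]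

omit [FiniteDimensional ℝ E] [IsManifold 𝓘(ℝ, E) ∞ M]
  [IsContMDiffRiemannianBundle 𝓘(ℝ, E) ∞ E (fun x : M => TangentSpace 𝓘(ℝ, E) x)] in
theorem metricComplete_iff : MetricComplete E M ↔ CompleteSpace M := by
  simp only [MetricComplete, dg, ← IsRiemannianManifold.out (I := 𝓘(ℝ, E))]
  refine ⟨fun h => EMetric.complete_of_cauchySeq_tendsto fun u hu => ?_, fun h u hu => ?_⟩
  · obtain ⟨x, hx⟩ := h u (EMetric.cauchySeq_iff.1 hu)
    exact ⟨x, EMetric.tendsto_atTop.2 hx⟩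
  · obtain ⟨x, hx⟩ := cauchySeq_tendsto_of_complete (EMetric.cauchySeq_iff.2 hu)
    exact ⟨x, EMetric.tendsto_atTop.1 hx⟩

theorem complete_of_or (h : MetricComplete E M ∨ GeodComplete E M) : CompleteSpace M :=
  h.elim metricComplete_iff.1 fun h => haveI := proper h; complete_of_proper

end

theorem main : ∀ n : ℕ, 3 ≤ n → ∃ C : ℝ,
    ∀ (E : Type) [NormedAddCommGroup E] [NormedSpace ℝ E] [FiniteDimensional ℝ E]
      (M : Type) [TopologicalSpace M] [T2Space M] [ConnectedSpace M] [ChartedSpace E M]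
      [RiemannianBundle (fun x : M => TangentSpace 𝓘(ℝ, E) x)] [IsManifold 𝓘(ℝ, E) ∞ M]
      [IsContMDiffRiemannianBundle 𝓘(ℝ, E) ∞ E (fun x : M => TangentSpace 𝓘(ℝ, E) x)],
      Module.finrank ℝ E = n → MetricComplete E M ∨ GeodComplete E M → ScalGE E M 1 →
      (∃ (V : Type) (K : PreAbstractSimplicialComplex V) (f : M → P210.Realization K),
        (∀ s ∈ K.faces, s.card ≤ n - 2 + 1) ∧ Continuous f ∧
          ∀ y, diam E (f ⁻¹' {y}) ≤ ENNReal.ofReal C) ∧
      UW E M (n - 2) ≤ ENNReal.ofReal C := fun n hn => by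
  obtain ⟨C, h⟩ := P210Q.q1 n hn
  refine ⟨C, fun E _ _ _ M _ _ _ _ _ _ _ hE hc hs => ?_⟩
  let _ : MetricSpace M := met E M
  have : IsRiemannianManifold 𝓘(ℝ, E) M := ⟨fun _ _ => rfl⟩
  obtain ⟨V, K, f, h1, h2, h3⟩ := h E M hE (complete_of_or hc) hs
  have h4 : ∀ y, diam E (f ⁻¹' {y}) ≤ ENNReal.ofReal C := fun y =>
    iSup₂_le fun a ha => iSup₂_le fun b hb => by
      rw [dg, ← IsRiemannianManifold.out (I := 𝓘(ℝ, E)), edist_dist]
      exact ENNReal.ofReal_le_ofReal (h3 a b (ha.trans hb.symm))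
  exact ⟨⟨V, K, f, h1, h2, h4⟩, iInf₂_le_of_le V K (iInf_le_of_le h1
    (iInf₂_le_of_le f h2 (iSup_le h4)))⟩

end Vale.Agent.P210Z57
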