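import Vale.Agent.P234Z57.Defs
import Vale.Agent.P210.Defs

/-!
# P210: complete Riemannian manifolds, scalar curvature and Urysohn width
-/

open Bundle Manifold IsManifold
open scoped ContDiff ENNReal

namespace Vale.Agent.P210Z57

variable {E : Type*} [NormedAddCommGroup E] [NormedSpace ℝ E]
  {M : Type*} [TopologicalSpace M] [ChartedSpace E M]
  [RiemannianBundle (fun x : M => TangentSpace 𝓘(ℝ, E) x)]

variable (E) in
/-- The Riemannian distance `d_g`: the infimum of the lengths of `C¹` paths from `x` to `y`. -/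
noncomputable def dg (x y : M) : ℝ≥0∞ := riemannianEDist 𝓘(ℝ, E) x y

variable (E M) in
/-- Every Cauchy sequence of `(M, d_g)` converges. -/
def MetricComplete : Prop :=
  ∀ u : ℕ → M, (∀ ε > 0, ∃ N, ∀ i ≥ N, ∀ j ≥ N, dg E (u i) (u j) < ε) →
    ∃ x, ∀ ε > 0, ∃ N, ∀ i ≥ N, dg E (u i) x < ε

variable (E M) in
/-- Every tangent vector is the initial velocity of a geodesic defined on the whole line. -/
def GeodComplete : Prop :=
  ∀ (x : M) (v : TangentSpace 𝓘(ℝ, E) x), ∃ c : ℝ → M,
    P234Z57.IsGeodesic E c ∧ P234Z57.Starts c x v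

/-- The Riemannian metric of `M` in the chart `e`: `g_z(v, w)` for `z` in the target. -/
noncomputable def chartMetric (e : OpenPartialHomeomorph M E) (z v w : E) : ℝ :=
  inner ℝ (mfderiv 𝓘(ℝ, E) 𝓘(ℝ, E) e.symm z v : TangentSpace 𝓘(ℝ, E) (e.symm z))
    (mfderiv 𝓘(ℝ, E) 𝓘(ℝ, E) e.symm z w : TangentSpace 𝓘(ℝ, E) (e.symm z))

/-- `Γ` is the Christoffel symbol (Levi-Civita connection) at the point `z` of the chart `e`
(Koszul formula). -/
def IsChristoffel (e : OpenPartialHomeomorph M E) (z : E) (Γ : E → E → E) : Prop :=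
  ∀ u v w : E, 2 * chartMetric e z (Γ u v) w =
    fderiv ℝ (fun y => chartMetric e y v w) z u + fderiv ℝ (fun y => chartMetric e y u w) z v
      - fderiv ℝ (fun y => chartMetric e y u v) z w

/-- The curvature `Rm(a, b, b, a)` (numerator of the sectional curvature of the plane spanned
by `a, b`) at the point `z` of the chart `e`. -/
noncomputable def sectNum (e : OpenPartialHomeomorph M E) (z : E) (Γ : E → E → E) (a b : E) : ℝ :=
  -(fderiv ℝ (fun y => fderiv ℝ (fun x => chartMetric e x b b) y a) z a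
      + fderiv ℝ (fun y => fderiv ℝ (fun x => chartMetric e x a a) y b) z b
      - 2 * fderiv ℝ (fun y => fderiv ℝ (fun x => chartMetric e x a b) y a) z b) / 2
    + chartMetric e z (Γ a b) (Γ a b) - chartMetric e z (Γ a a) (Γ b b)

variable (E M) in
/-- The scalar curvature is at least `σ`. -/
def ScalGE (σ : ℝ) : Prop :=
  ∀ e ∈ maximalAtlas 𝓘(ℝ, E) ∞ M, ∀ z ∈ e.target, ∃ Γ, IsChristoffel e z Γ ∧
    ∀ b : Module.Basis (Fin (Module.finrank ℝ E)) ℝ E,
      (∀ i j, chartMetric e z (b i) (b j) = if i = j then 1 else 0) →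
      σ ≤ ∑ i, ∑ j, sectNum e z Γ (b i) (b j)

variable (E) in
/-- The diameter of `S` for `d_g`. -/
noncomputable def diam (S : Set M) : ℝ≥0∞ := ⨆ x ∈ S, ⨆ y ∈ S, dg E x y

variable (E M) in
/-- The Urysohn width `UW_d(M, d_g)`. -/
noncomputable def UW (d : ℕ) : ℝ≥0∞ :=
  ⨅ (V : Type) (K : PreAbstractSimplicialComplex V) (_ : ∀ s ∈ K.faces, s.card ≤ d + 1)
    (f : M → P210.Realization K) (_ : Continuous f), ⨆ y, diam E (f ⁻¹' {y})

end Vale.Agent.P210Z57
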